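import Mathlib
import Vale.Agent.Lib.P162.Defs

/-!
helper94, pool job P162-C (second copy): the `m`-th power of a product kernel is the product of
the `m`-th powers.  The kernel is written with `Matrix.of`, so that the power is the matrix
power (a bare function with a type ascription would get the pointwise power of functions).
-/

namespace Vale.Agent.Lib.P162.H94

open Finset BigOperators

theorem prodKernel_pow {α : Type*} [Fintype α] [DecidableEq α] (k : ℕ) (W : Matrix α α ℝ) (m : ℕ)
    (z y : Fin k → α) :
    ((Matrix.of fun z y : Fin k → α => ∏ j, W (z j) (y j)) ^ m) z y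
      = ∏ j, (W ^ m) (z j) (y j) := by
  induction m generalizing z y with
  | zero =>
    rw [pow_zero, Matrix.one_apply]
    by_cases h : z = y
    · subst h
      simp
    · rw [if_neg h]
      obtain ⟨j, hj⟩ := Function.ne_iff.1 h
      exact (Finset.prod_eq_zero (Finset.mem_univ j) (by simp [hj])).symm
  | succ m ih =>
    rw [pow_succ, Matrix.mul_apply]
    simp only [ih, pow_succ, Matrix.mul_apply, Matrix.of_apply]
    simp only [← Finset.prod_mul_distrib]
    rw [Finset.prod_univ_sum]
    simp [Fintype.piFinset_univ]

theorem Wk_pow (h k : ℕ) [NeZero h] (m : ℕ) (z y : Fin k → ZMod (2 * h)) :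
    (Wk h k ^ m) z y = ∏ j, (Wmat h ^ m) (z j) (y j) :=
  prodKernel_pow k (Wmat h) m z y

end Vale.Agent.Lib.P162.H94
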