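import Mathlib
import Vale.Agent.Lib.P162.Defs

/-!
helper94, pool job P162-E2 (second copy): the one-step kernel of `k` tracked cards is a
stochastic matrix, so are its powers, and distinct cards stay distinct.
-/

namespace Vale.Agent.Lib.P162.H94

open Finset BigOperators

theorem stepProb_nonneg (h k : ℕ) [NeZero h] (z y : Fin k → ZMod (2 * h)) :
    0 ≤ stepProb h k z y := by
  unfold stepProb
  positivity

theorem stepProb_sum (h k : ℕ) [NeZero h] (z : Fin k → ZMod (2 * h)) :
    ∑ y, stepProb h k z y = 1 := by
  unfold stepProb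
  rw [← Finset.sum_div]
  have hfib : ∑ y : Fin k → ZMod (2 * h),
      ((univ.filter fun c : ZMod h → Bool => ∀ j, move h c (z j) = y j).card : ℝ)
      = ((univ : Finset (ZMod h → Bool)).card : ℝ) := by
    rw [Finset.card_eq_sum_card_fiberwise (f := fun c : ZMod h → Bool => fun j => move h c (z j))
      (t := univ) (fun _ _ => mem_univ _)]
    push_cast
    refine Finset.sum_congr rfl (fun y _ => ?_)
    congr 2
    ext c
    simp [funext_iff]
  rw [hfib, Finset.card_univ, Fintype.card_fun, ZMod.card, Fintype.card_bool]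
  push_cast
  exact div_self (by positivity)

theorem Kmat_pow_nonneg (h k : ℕ) [NeZero h] (s : ℕ) (x y : Fin k → ZMod (2 * h)) :
    0 ≤ (Kmat h k ^ s) x y := by
  induction s generalizing y with
  | zero =>
    rw [pow_zero, Matrix.one_apply]
    split_ifs <;> norm_num
  | succ s ih =>
    rw [pow_succ, Matrix.mul_apply]
    exact Finset.sum_nonneg (fun u _ => mul_nonneg (ih u) (stepProb_nonneg h k u y))

theorem Kmat_pow_sum (h k : ℕ) [NeZero h] (s : ℕ) (x : Fin k → ZMod (2 * h)) :
    ∑ y, (Kmat h k ^ s) x y = 1 := by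
  induction s with
  | zero =>
    simp [Matrix.one_apply]
  | succ s ih =>
    simp only [pow_succ, Matrix.mul_apply]
    rw [Finset.sum_comm]
    have : ∀ u : Fin k → ZMod (2 * h),
        ∑ y, (Kmat h k ^ s) x u * Kmat h k u y = (Kmat h k ^ s) x u := by
      intro u
      rw [← Finset.mul_sum]
      have h1 : ∑ y, Kmat h k u y = 1 := stepProb_sum h k u
      rw [h1, mul_one]
    rw [Finset.sum_congr rfl (fun u _ => this u), ih]

theorem Kmat_pow_support (h k : ℕ) [NeZero h]
    (hinj : ∀ c : ZMod h → Bool, Function.Injective (move h c))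
    (x : Fin k → ZMod (2 * h)) (hx : Function.Injective x) (s : ℕ) (y : Fin k → ZMod (2 * h))
    (hy : (Kmat h k ^ s) x y ≠ 0) : Function.Injective y := by
  induction s generalizing y with
  | zero =>
    rw [pow_zero, Matrix.one_apply] at hy
    by_cases hxy : x = y
    · rw [← hxy]
      exact hx
    · rw [if_neg hxy] at hy
      exact absurd rfl hy
  | succ s ih =>
    rw [pow_succ, Matrix.mul_apply] at hy
    obtain ⟨u, -, hu⟩ := Finset.exists_ne_zero_of_sum_ne_zero hy
    have hu1 : (Kmat h k ^ s) x u ≠ 0 := left_ne_zero_of_mul hu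
    have hu2 : stepProb h k u y ≠ 0 := right_ne_zero_of_mul hu
    have huinj : Function.Injective u := ih u hu1
    have hcard : (univ.filter fun c : ZMod h → Bool => ∀ j, move h c (u j) = y j).card ≠ 0 := by
      intro h0
      apply hu2
      unfold stepProb
      rw [h0]
      simp
    obtain ⟨c, hc⟩ := Finset.card_pos.1 (Nat.pos_of_ne_zero hcard)
    have hc' : ∀ j, move h c (u j) = y j := (Finset.mem_filter.1 hc).2
    intro i j hij
    apply huinj
    apply hinj c
    rw [hc' i, hc' j, hij]

end Vale.Agent.Lib.P162.H94
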